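import Mathlib
import Vale.Agent.Lib.P262.Core

namespace Vale.Agent.Results.P262.SigmaLowerBound

open scoped ENNReal

/-- `σ(d,N)`, with values in `[0,∞]`: the supremum over `v_1,…,v_N` in the Euclidean unit ball of
`ℝ^d` of the minimum over signs `ε ∈ {-1,1}^N` of the maximum over `0 ≤ k ≤ N` of
`‖∑_{i ≤ k} ε_i v_i‖₂`. -/
noncomputable def sigmaN (d N : ℕ) : ℝ≥0∞ :=
  ⨆ v : Fin N → Metric.closedBall (0 : EuclideanSpace ℝ (Fin d)) 1,
    ⨅ ε : Fin N → ℤˣ,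
      ⨆ k : Fin (N + 1),
        ‖∑ i : Fin N with i.val < k.val,
          ((ε i : ℤ) : ℝ) • (v i : EuclideanSpace ℝ (Fin d))‖ₑ

/-- `σ(d) = sup_{N ≥ 1} σ(d,N)`. -/
noncomputable def sigma (d : ℕ) : ℝ≥0∞ := ⨆ N : ℕ, ⨆ _ : 1 ≤ N, sigmaN d N

/-- For every `d ≥ 2` one has `σ(d) ≥ √(d+1)`. -/
theorem result : ∀ d : ℕ, 2 ≤ d → ENNReal.ofReal (Real.sqrt ((d : ℝ) + 1)) ≤ sigma d := by
  intro d hd
  apply le_of_forall_lt_imp_le_of_dense
  intro c hc
  have hctop : c ≠ ⊤ := ne_top_of_lt hc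
  set M := c.toReal with hMdef
  have hcM : c = ENNReal.ofReal M := (ENNReal.ofReal_toReal hctop).symm
  have hpos : (0 : ℝ) < Real.sqrt ((d : ℝ) + 1) := Real.sqrt_pos.2 (by positivity)
  have hM : M < Real.sqrt ((d : ℝ) + 1) := by
    rw [hcM] at hc
    exact (ENNReal.ofReal_lt_ofReal_iff hpos).1 hc
  have hM0 : 0 ≤ M := ENNReal.toReal_nonneg
  have hM2 : M ^ 2 < (d : ℝ) + 1 := by
    calc M ^ 2 < (Real.sqrt ((d : ℝ) + 1)) ^ 2 := pow_lt_pow_left₀ hM hM0 (by norm_num)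
      _ = (d : ℝ) + 1 := Real.sq_sqrt (by positivity)
  obtain ⟨N, v, hv, H⟩ := Vale.Agent.Lib.P262.exists_bad_sequence hd
    (EuclideanSpace.basisFun (Fin d) ℝ).orthonormal hM2
  refine le_iSup_of_le (N + 1) (le_iSup_of_le (by omega) ?_)
  refine le_iSup_of_le (fun i => ⟨v i.val, by simpa using hv i.val⟩) ?_
  refine le_iInf fun ε => ?_
  set ε' : ℕ → ℝ := fun i => if h : i < N + 1 then ((ε ⟨i, h⟩ : ℤ) : ℝ) else 1 with hε'
  have hsign : ∀ i, ε' i = 1 ∨ ε' i = -1 := by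
    intro i
    simp only [hε']
    split_ifs with h
    · rcases Int.units_eq_one_or (ε ⟨i, h⟩) with h1 | h1 <;> simp [h1]
    · left; rfl
  obtain ⟨k, hk, hk'⟩ := H ε' hsign
  refine le_iSup_of_le ⟨k, by omega⟩ ?_
  have hsum : (∑ i : Fin (N + 1) with i.val < k, ((ε i : ℤ) : ℝ) • v i.val)
      = ∑ i ∈ Finset.range k, ε' i • v i := by
    have h1 : (∑ i : Fin (N + 1) with i.val < k, ((ε i : ℤ) : ℝ) • v i.val)
        = ∑ i : Fin (N + 1), (fun j : ℕ => if j < k then ε' j • v j else 0) i.val := by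
      rw [Finset.sum_filter]
      refine Finset.sum_congr rfl fun i _ => ?_
      have hi : ε' i.val = ((ε i : ℤ) : ℝ) := by
        simp only [hε']
        rw [dif_pos i.isLt]
      simp only [hi]
    rw [h1, Fin.sum_univ_eq_sum_range (fun j : ℕ => if j < k then ε' j • v j else 0) (N + 1),
      ← Finset.sum_filter]
    congr 1
    ext j
    simp only [Finset.mem_filter, Finset.mem_range]
    omega
  simp only
  rw [hsum, hcM, ← ofReal_norm]
  exact ENNReal.ofReal_le_ofReal hk'.le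

end Vale.Agent.Results.P262.SigmaLowerBound
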